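import Crest.Agent.R191.Defs

/-!
# Row 191 (S0291), failure of fixed price: the paper proof (helper49)

Constants: `g = 40009` (prime), `ℓ = 6·10^13`, `n = ℓ + 3`, `δ = α/100 ≤ 2·10^-19`.

## 1. The group
`F` free on `s_1..s_g`; words `C_i = c_{i,0} … c_{i,ℓ-1}` in the `s_j` (positive), first and last letter
`i`, all inner windows of length 4 distinct (WORDS: linear recurrences over `GF(g^4)`).
`φ(s_i) = C_i` is injective; `Γ = HNN: t f t⁻¹ = φ(f)`.  Relators (cyclic words of length `n`):
`t s_i t⁻¹ C_i⁻¹`.  Convention: an `a`-edge goes from `x` to `(val a)⁻¹ • x`, so that reading the word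
`w` (from left to right) leads from `x` to `(wval w)⁻¹ • x`.

DEHN: a reduced word `w` with value `s_{i0}` is `[s_{i0}]` or contains a subword of length
`≥ n - 60` of a cyclic relator or its inverse (BLK, LOCAL, GLOBAL, EXC, BRIT).

## 2. Cheap actions
`X × ZMod (gM)`, `t` shifts the level, `s_i = t⁻¹ C_i t`: graphing `t` everywhere, `s_i` on level `0`,
cost `1 + 1/M` (CHEAP).

## 3. The expensive action: the Bernoulli shift (fair coin) on `Bool^Γ`
It has the spectral gap `SG`: `∑_i ∫ u(x) v(s_i⁻¹x) ≤ 2√g ‖u‖‖v‖ + g ∫u ∫v` for `u, v ≥ 0` (Walsh
expansion, the free group acts freely on the nonempty finite subsets of `Γ`; WALK).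
Suppose the cost is `< 1 + δ`.  SLIDE, TRUNC: `t` and finitely many arcs `(A_k, γ_k)` of total
measure `< δ` generate.  Restrict to a conull invariant set where everything (freeness,
generation) holds everywhere (RESTR, ENVMK).

## 4. Fields of graphs
A field: sheets `S` (countable), `E a n m ⊆ X` = set of `x` such that there is an `a`-edge from `(x,n)` to
`((val a)⁻¹x, m)`.  `E`, `V`, `F` = measures of the sets of edges, vertices, closed relator loops.
The class `Good`: folded, contains the `t`-lines on the base sheet, connected to the base,
generating, `E < ∞`, cocycle condition `Coc` (with measure `≤ δ` of extra rows and all closed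
loops), `E - V ≤ 2δ`.
(STAR) `Coc` with `T` implies `E - V ≤ δ + |T|` (Lemma L, rows: base `t`-edges, extra rows, loops,
parent edges of a spanning forest towards the base).
INIT: the class is not empty.
`Λ = E - 61 F`.  PRUNE: passing to the core (then all degrees are `≥ 2`, D2) does not increase `Λ`.
COLLAPSE: a loop is long if it has 61 consecutive vertices of degree 2; removing 62 edges of each
long loop stays in the class: `Λ` drops by `#long`.
SHORT: short loops live within distance 61 of branch vertices, a set of vertices of measure
`≤ 368 (E - V) ≤ 736 δ`; by the spectral gap (CL, CLT) a set `W` of vertices of small measure supports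
at most `|W|/2000` relator loops (or near-complete readings), since each loop contains `≥ ℓ - 68`
distinct positive 4-paths, windows determine the loop, and `W` has at most `(2√g+1)^4 |W|`
positive 4-paths.  So `2000 #short ≤ 368 (E - V)`.
Hence `Λ` is bounded below; take `𝒢` with D2 and `Λ(𝒢) ≤ inf Λ + δ/10`.  Then `#long ≤ δ/10`,
`E - V ≤ δ + F`, so `F ≤ δ/2`.

## 5. Stages
Fix a rotation `k < n`.  `N` = near-complete readings: vertices from which the `k`-rotated relator
`i` is readable for `n - 60` letters but does not close.  For `A ⊆ N` with `|A| ≤ δ/4`
attach the full loops at `A` and fold: `𝒢'`.  With `T = F_k ∪ A`, `D` = elements of `T` with non-unique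
image, `Δ = E - |image of the old edges|`:
`E' ≤ E - Δ + 60|A|`, `F' ≥ F + |A| - |D|`, `1000 |D| ≤ 2Δ` (CLT on the vertices visited by `D`, which are
end points of edges with non-unique image), so `Λ' ≤ Λ - |A|`; `Coc` holds with the images of `T`, so
`E' - V' ≤ δ + F + |A| ≤ 2δ`: `𝒢'` is in the class.  Near-minimality gives `|N| ≤ δ/10` (take `A ⊆ N`
of intermediate measure), so we may take `A = N`: `𝒢'` is again a near-minimizer and all
near-complete readings (rotation `k`) of `𝒢` are closed in `𝒢'`.
A round = all `k < n`.

## 6. Contradiction
After a round, the shortest word leading from `(x, base)` to `(s_{i0}⁻¹ x, base)` gets shorter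
(Dehn + freeness) unless it is `[s_{i0}]`.  For some `L` at least half of the points have such
a word of length `≤ L`; after `L` rounds at least half of the base vertices have an `s_{i0}`-edge,
so have degree `≥ 3`; but the number of vertices of degree `≥ 3` is `≤ 2(E - V) ≤ 4δ < 1/2`.
-/
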